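import Vale.Agent.P022.H567.Cft
import Vale.Agent.P022.CF.H820.H90

/-!
P022-CFT (helper820): block [H90] of H567/Cft.
-/

set_option linter.all false

open Finset

namespace Vale.Agent.P022.H820

open Vale.Agent.P022.C Vale.Agent.P022.CF.H820

/-- Hilbert 90 for an `R`-algebra with finitely many maximal ideals, `R` infinite. -/
theorem h90_lin {R B E : Type*} [Field R] [Infinite R] [CommRing B] [Algebra R B]
    [Finite (MaximalSpectrum B)] [Field E] (j : E →+* B) (s : B ≃ₐ[R] B) (τ : E ≃+* E)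
    {n : ℕ} (hn0 : 0 < n) (hj : ∀ x, s (j x) = j (τ x)) (hn : orderOf τ = n) (hs : s ^ n = 1)
    {u : B} (hu : pn (s : B →+* B) u n = 1) : ∃ w : Bˣ, u * s w = w := by
  classical
  let L : B →ₗ[R] B :=
    ∑ i ∈ Finset.range n, (LinearMap.mulLeft R (pn (s : B →+* B) u i)) ∘ₗ (s ^ i).toLinearMap
  have hL : ∀ θ, L θ = ∑ i ∈ Finset.range n, pn (s : B →+* B) u i * (s ^ i) θ := by
    intro θ
    simp only [L, LinearMap.sum_apply, LinearMap.comp_apply, LinearMap.mulLeft_apply]
    rfl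
  have hji : ∀ i x, (s ^ i) (j x) = j ((τ ^ i) x) := by
    intro i
    induction i with
    | zero => intro x; rfl
    | succ i ih =>
      intro x
      rw [pow_succ', pow_succ', AlgEquiv.mul_apply, ih, hj]
      rfl
  have key : ∀ θ, u * s (L θ) = L θ := by
    intro θ
    have e1 : u * s (L θ) = ∑ i ∈ Finset.range n, pn (s : B →+* B) u (i + 1) * (s ^ (i + 1)) θ := by
      rw [hL, map_sum, Finset.mul_sum]
      refine Finset.sum_congr rfl fun i _ => ?_
      rw [map_mul, pn_succ, mul_assoc, pow_succ', AlgEquiv.mul_apply]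
      rfl
    have e2 := Finset.sum_range_succ' (fun i => pn (s : B →+* B) u i * (s ^ i) θ) n
    have e3 := Finset.sum_range_succ (fun i => pn (s : B →+* B) u i * (s ^ i) θ) n
    rw [e1]
    rw [e3] at e2
    have e4 : pn (s : B →+* B) u n * (s ^ n) θ = pn (s : B →+* B) u 0 * (s ^ 0) θ := by
      rw [hu, pn_zero, hs, pow_zero]
    rw [e4] at e2
    rw [hL]
    exact (add_right_cancel e2).symm
  let S : MaximalSpectrum B → Submodule R B := fun P =>
    (P.asIdeal.restrictScalars R).comap L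
  have hS : ∀ P, S P ≠ ⊤ := by
    intro P hP
    haveI := P.isMaximal
    letI : Field (B ⧸ P.asIdeal) := Ideal.Quotient.field P.asIdeal
    let q : B →+* B ⧸ P.asIdeal := Ideal.Quotient.mk P.asIdeal
    let φ : Fin n → (E →* B ⧸ P.asIdeal) := fun i =>
      ((q.comp j).comp ((τ ^ (i : ℕ)) : E ≃+* E).toRingHom).toMonoidHom
    have hφ : ∀ i θ, φ i θ = q (j ((τ ^ (i : ℕ)) θ)) := fun i θ => rfl
    have hinj : Function.Injective φ := by
      intro i i' hij
      have h1 : τ ^ (i : ℕ) = τ ^ (i' : ℕ) := by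
        ext θ
        have h2 : φ i θ = φ i' θ := by rw [hij]
        rw [hφ, hφ] at h2
        exact (q.comp j).injective h2
      exact Fin.ext (pow_injOn_Iio_orderOf (by rw [hn]; exact i.2) (by rw [hn]; exact i'.2) h1)
    have hli := (linearIndependent_monoidHom E (B ⧸ P.asIdeal)).comp φ hinj
    rw [Fintype.linearIndependent_iff] at hli
    have h0 := hli (fun i => q (pn (s : B →+* B) u i)) (by
      funext θ
      have h3 : L (j θ) ∈ P.asIdeal := by
        have h4 : j θ ∈ S P := by rw [hP]; trivial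
        exact h4
      have h5 : q (L (j θ)) = 0 := Ideal.Quotient.eq_zero_iff_mem.2 h3
      rw [hL, map_sum,
        ← Fin.sum_univ_eq_sum_range (fun i => q (pn (s : B →+* B) u i * (s ^ i) (j θ)))] at h5
      rw [Finset.sum_apply]
      simp only [Pi.smul_apply, Function.comp_apply, smul_eq_mul, Pi.zero_apply]
      rw [← h5]
      refine Finset.sum_congr rfl fun i _ => ?_
      rw [map_mul, hji]
      rfl) ⟨0, hn0⟩
    rw [pn_zero, map_one] at h0
    exact one_ne_zero h0
  have hne : (⋃ P, (S P : Set B)) ≠ Set.univ := fun h => by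
    obtain ⟨P, hP⟩ := Subspace.exists_eq_top_of_iUnion_eq_univ h
    exact hS P hP
  obtain ⟨θ, hθ⟩ := (Set.ne_univ_iff_exists_notMem _).1 hne
  have hun : IsUnit (L θ) := by
    by_contra hc
    obtain ⟨P, hP, hmem⟩ := exists_max_ideal_of_mem_nonunits hc
    exact hθ (Set.mem_iUnion.2 ⟨⟨P, hP⟩, hmem⟩)
  exact ⟨hun.unit, key θ⟩

theorem pn_eq {R B : Type*} [Field R] [CommRing B] [Algebra R B] (s : B ≃ₐ[R] B) (u : B) (n : ℕ) :
    pn (s : B →+* B) u n = ∏ i ∈ range n, (s ^ i) u := by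
  rw [pn]
  refine Finset.prod_congr rfl fun i hi => ?_
  clear hi
  induction i with
  | zero => rfl
  | succ i ih =>
    rw [pow_succ', Function.iterate_succ_apply', AlgEquiv.mul_apply, ih]
    rfl

/-- **[H90]** -/
theorem H90 : H90Stmt := by
  intro R B E _ _ _ _ _ _ j s τ n hn0 hj hn hs u hu
  haveI : IsArtinianRing B := IsArtinianRing.of_finite R B
  obtain ⟨w, hw⟩ := h90_lin j s τ hn0 hj hn hs (u := u) (by rw [pn_eq, hu])
  refine ⟨w⁻¹, ?_⟩
  have h1 : s (w : B) * s ((w⁻¹ : Bˣ) : B) = 1 := by rw [← map_mul, w.mul_inv, map_one]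
  have h2 : s ((w⁻¹ : Bˣ) : B) = ((w⁻¹ : Bˣ) : B) * ((w : B) * s ((w⁻¹ : Bˣ) : B)) := by
    rw [← mul_assoc, w.inv_mul, one_mul]
  rw [h2]
  nth_rw 1 [← hw]
  rw [mul_assoc, h1, mul_one, mul_comm]

end Vale.Agent.P022.H820
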